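import Vale.Agent.P359.Trial

/-!
# P359: every admissible constant in the gap inequality is at most three
-/

namespace Vale.Agent.Results.P359.GapUpperBound

open Vale.Agent.P359

theorem result :
    ∀ N : ℕ, 2 ≤ N → ∀ δ : ℝ,
      (∀ ψ : Config N (3 * (N - 1)) → ℝ, IsAntisym ψ →
        δ * (inner' ψ ψ - inner' (laughlin N) ψ ^ 2 / inner' (laughlin N) (laughlin N))
          ≤ energy ψ) →
      δ ≤ 3 := by
  intro N hN δ h
  obtain ⟨n, rfl⟩ : ∃ n, N = n + 1 := ⟨N - 1, by omega⟩
  have hn : 1 ≤ n := by omega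
  have h1 := h (trial (n := n)) trial_antisym
  have h2 : energy (trial (n := n)) ≤ 3 * inner' trial (trial (n := n)) := trial_energy hn
  have h3 : inner' (laughlin (n + 1)) (trial (n := n)) = 0 := trial_orth hn
  obtain ⟨c, hc⟩ := exists_trial_ne_zero (n := n)
  have h4 : 0 < inner' (trial (n := n)) trial :=
    Finset.sum_pos' (fun d _ => mul_self_nonneg _) ⟨c, Finset.mem_univ _, mul_self_pos.2 hc⟩
  erw [h3] at h1
  simp only [ne_eq, OfNat.ofNat_ne_zero, not_false_eq_true, zero_pow, zero_div, sub_zero] at h1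
  exact le_of_mul_le_mul_right (h1.trans h2) h4

end Vale.Agent.Results.P359.GapUpperBound
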