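import Vale.Agent.P359.Gap.Final
import Vale.Agent.P359.Gap.Laughlin
import Vale.Agent.P359.Gap.Cert.Blocks

/-!
# P359: the uniform spectral gap of the spherical Laughlin Hamiltonian at filling 1/3
-/

namespace Vale.Agent.Results.P359.UniformGap

open Vale.Agent.P359 Vale.Agent.P359.Gap

/-- At the Laughlin flux the spherical pseudopotential Hamiltonian is bounded below by a constant,
independent of the particle number, times the projection orthogonal to the Laughlin vector. -/
theorem result :
    ∃ δ > (0 : ℝ), ∃ N₀ : ℕ, ∀ N ≥ N₀,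
      IsAntisym (laughlin N) ∧ energy (laughlin N) = 0 ∧ 0 < inner' (laughlin N) (laughlin N) ∧
      ∀ ψ : Config N (3 * (N - 1)) → ℂ, IsAntisymC ψ →
        δ * ((∑ c, Complex.normSq (ψ c)) -
          Complex.normSq (∑ c, (laughlin N c : ℂ) * ψ c) / inner' (laughlin N) (laughlin N)) ≤
            energyC ψ := by
  obtain ⟨δ, hδ, N₀, h⟩ := gap_of_blocks Cert.cert_blocks
  exact ⟨δ, hδ, N₀, fun N hN =>
    ⟨laughlin_antisym N, energy_laughlin N, (h N hN).1, (h N hN).2⟩⟩

end Vale.Agent.Results.P359.UniformGap
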